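import Mathlib

/-!
# P031: ratios of the counting function of totient values
-/

namespace Vale.Agent.P031

open Filter Topology

/-- the set of values of Euler's function -/
def Totients : Set ℕ := {v | ∃ n : ℕ, 1 ≤ n ∧ Nat.totient n = v}

/-- totients which are not twice a totient -/
def Primitive : Set ℕ := {v | v ∈ Totients ∧ ∀ w ∈ Totients, v ≠ 2 * w}

/-- `V(x)` -/
noncomputable def V (x : ℝ) : ℕ := {v : ℕ | v ∈ Totients ∧ (v : ℝ) ≤ x}.ncard

/-- number of primitive totients up to `x` -/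
noncomputable def U (x : ℝ) : ℕ := {v : ℕ | v ∈ Primitive ∧ (v : ℝ) ≤ x}.ncard

theorem totient_pos' {v : ℕ} (h : v ∈ Totients) : 1 ≤ v := by
  obtain ⟨n, hn, rfl⟩ := h
  exact Nat.totient_pos.mpr hn

theorem double {v : ℕ} (h : v ∈ Totients) : 2 * v ∈ Totients := by
  obtain ⟨n, hn, rfl⟩ := h
  rcases Nat.even_or_odd n with he | ho
  · refine ⟨2 * n, by omega, ?_⟩
    exact Nat.totient_two_mul_of_even he
  · refine ⟨2 * (2 * n), by omega, ?_⟩
    rw [Nat.totient_two_mul_of_even (even_two_mul n), Nat.totient_two_mul_of_odd ho]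

theorem finite_le (S : Set ℕ) (x : ℝ) : {v : ℕ | v ∈ S ∧ (v : ℝ) ≤ x}.Finite := by
  apply (Set.finite_Iic ⌊x⌋₊).subset
  rintro v ⟨_, hv⟩
  exact Nat.le_floor hv

theorem V_mono {x y : ℝ} (h : x ≤ y) : V x ≤ V y :=
  Set.ncard_le_ncard (fun _ hv => ⟨hv.1, hv.2.trans h⟩) (finite_le _ _)

theorem V_le {x : ℝ} (hx : 0 ≤ x) : (V x : ℝ) ≤ x := by
  have h1 : {v : ℕ | v ∈ Totients ∧ (v : ℝ) ≤ x} ⊆ (Finset.Icc 1 ⌊x⌋₊ : Finset ℕ) := by
    rintro v ⟨hv, hvx⟩
    rw [Finset.coe_Icc]
    exact ⟨totient_pos' hv, Nat.le_floor hvx⟩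
  have h2 : V x ≤ ⌊x⌋₊ := by
    have := Set.ncard_le_ncard h1 (Finset.finite_toSet _)
    rw [Set.ncard_coe_finset, Nat.card_Icc] at this
    unfold V
    omega
  exact (Nat.cast_le.mpr h2).trans (Nat.floor_le hx)

theorem V_pos {x : ℝ} (hx : 1 ≤ x) : 1 ≤ V x := by
  unfold V
  exact (Set.ncard_pos (finite_le _ _)).mpr ⟨1, ⟨1, le_rfl, Nat.totient_one⟩, by exact_mod_cast hx⟩

theorem primes_le_V (x : ℝ) : Nat.primeCounting ⌊x⌋₊ ≤ V x := by
  classical
  rw [Nat.primeCounting, Nat.primeCounting', Nat.count_eq_card_filter_range]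
  have h1 : (((Finset.range (⌊x⌋₊ + 1)).filter Nat.Prime).image (fun p => p - 1) : Finset ℕ) ≤
      ((finite_le Totients x).toFinset) := by
    intro v hv
    obtain ⟨p, hp, rfl⟩ := Finset.mem_image.mp hv
    rw [Finset.mem_filter, Finset.mem_range] at hp
    rw [Set.Finite.mem_toFinset]
    refine ⟨⟨p, hp.2.one_lt.le, Nat.totient_prime hp.2⟩, ?_⟩
    have h2 : p ≤ ⌊x⌋₊ := by omega
    have h3 : 0 < ⌊x⌋₊ := lt_of_lt_of_le hp.2.pos h2
    have hx : 0 ≤ x := by
      by_contra hneg
      rw [Nat.floor_of_nonpos (by linarith)] at h3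
      exact lt_irrefl _ h3
    calc ((p - 1 : ℕ) : ℝ) ≤ (p : ℝ) := by exact_mod_cast Nat.sub_le p 1
      _ ≤ (⌊x⌋₊ : ℝ) := by exact_mod_cast h2
      _ ≤ x := Nat.floor_le hx
  have h2 := Finset.card_le_card h1
  rw [Finset.card_image_of_injOn] at h2
  · unfold V
    rw [Set.ncard_eq_toFinset_card _ (finite_le _ _)]
    exact h2
  · intro p hp q hq hpq
    rw [Finset.mem_coe, Finset.mem_filter] at hp hq
    have := hp.2.one_lt
    have := hq.2.one_lt
    simp only at hpq
    omega

/-- `log V(x) / log x → 1` -/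
theorem log_V : Tendsto (fun x : ℝ => Real.log (V x) / Real.log x) atTop (𝓝 1) := by
  have hlog2 : 0.69 < Real.log 2 := by have := Real.log_two_gt_d9; linarith
  have h1 : ∀ᶠ x : ℝ in atTop, Real.log x ≤ x / 100 := by
    have := Real.isLittleO_log_id_atTop.bound (show (0 : ℝ) < 1 / 100 by norm_num)
    filter_upwards [this, eventually_ge_atTop (1 : ℝ)] with L hL hL1
    rw [Real.norm_eq_abs, Real.norm_eq_abs, abs_of_nonneg (Real.log_nonneg hL1), id,
      abs_of_nonneg (by linarith)] at hL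
    linarith
  -- lower bound `x / (4 log x) ≤ V x`
  have h2 : ∀ᶠ x : ℝ in atTop, x / (4 * Real.log x) ≤ V x := by
    filter_upwards [h1, eventually_ge_atTop (100 : ℝ),
      (tendsto_atTop_add_const_right atTop (2 : ℝ) tendsto_id).eventually h1] with x hx hx100 hx2
    have h3 := Chebyshev.pi_ge' (show 1 < x by linarith)
    have h4 : (Nat.primeCounting ⌊x⌋₊ : ℝ) ≤ V x := by exact_mod_cast primes_le_V x
    refine le_trans ?_ (h3.trans h4)
    have hl : 0 < Real.log x := Real.log_pos (by linarith)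
    have h5 : x / 4 ≤ (x - 1) * Real.log 2 - Real.log (x + 2) := by
      have h6 : (x - 1) * 0.69 ≤ (x - 1) * Real.log 2 :=
        mul_le_mul_of_nonneg_left hlog2.le (by linarith)
      simp only [id] at hx2
      linarith
    calc x / (4 * Real.log x) = (x / 4) / Real.log x := by field_simp
      _ ≤ _ := div_le_div_of_nonneg_right h5 hl.le
  -- squeeze
  have hloglog : Tendsto (fun x : ℝ => Real.log (Real.log x) / Real.log x) atTop (𝓝 0) :=
    (Real.isLittleO_log_id_atTop.tendsto_div_nhds_zero).comp Real.tendsto_log_atTop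
  have hc : Tendsto (fun x : ℝ => Real.log 4 / Real.log x) atTop (𝓝 0) :=
    tendsto_const_nhds.div_atTop Real.tendsto_log_atTop
  have hlow : Tendsto (fun x : ℝ => 1 - Real.log 4 / Real.log x -
      Real.log (Real.log x) / Real.log x) atTop (𝓝 1) := by
    simpa using (tendsto_const_nhds.sub hc).sub hloglog
  refine tendsto_of_tendsto_of_tendsto_of_le_of_le' hlow tendsto_const_nhds ?_ ?_
  · filter_upwards [h2, eventually_gt_atTop (Real.exp 1)] with x hx hxe
    have hx0 : 0 < x := lt_trans (Real.exp_pos 1) hxe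
    have hl1 : 1 < Real.log x := by rwa [Real.lt_log_iff_exp_lt hx0]
    have hl : 0 < Real.log x := by linarith
    rw [le_div_iff₀ hl]
    have h3 := Real.log_le_log (by positivity) hx
    rw [Real.log_div hx0.ne' (by positivity), Real.log_mul (by norm_num) hl.ne'] at h3
    have h4 : (1 - Real.log 4 / Real.log x - Real.log (Real.log x) / Real.log x) * Real.log x =
        Real.log x - (Real.log 4 + Real.log (Real.log x)) := by
      field_simp
      ring
    rw [h4]
    exact h3
  · filter_upwards [eventually_gt_atTop (1 : ℝ)] with x hx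
    have hl : 0 < Real.log x := Real.log_pos hx
    rw [div_le_one hl]
    apply Real.log_le_log
    · exact_mod_cast V_pos hx.le
    · exact V_le (by linarith)

end Vale.Agent.P031
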