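import Mathlib
import Vale.Agent.P031.Basic

/-!
# P031: ratios of the counting function of totient values
-/

namespace Vale.Agent.P031

open Filter Topology

theorem V_posR {x : ℝ} (hx : 1 ≤ x) : (0 : ℝ) < V x := by
  exact_mod_cast V_pos hx

theorem one_le_pow_mul {c x : ℝ} (hc : 1 < c) (hx : 1 ≤ x) (k : ℕ) : 1 ≤ c ^ k * x :=
  one_le_mul_of_one_le_of_one_le (one_le_pow₀ hc.le) hx

theorem telescope {c x : ℝ} (hc : 1 < c) (hx : 1 ≤ x) (K : ℕ) :
    ∑ k ∈ Finset.range K, Real.log ((V (c ^ (k + 1) * x) : ℝ) / V (c ^ k * x)) =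
      Real.log (V (c ^ K * x)) - Real.log (V x) := by
  have h1 : ∀ k ∈ Finset.range K, Real.log ((V (c ^ (k + 1) * x) : ℝ) / V (c ^ k * x)) =
      Real.log (V (c ^ (k + 1) * x)) - Real.log (V (c ^ k * x)) := by
    intro k _
    exact Real.log_div (V_posR (one_le_pow_mul hc hx _)).ne' (V_posR (one_le_pow_mul hc hx _)).ne'
  rw [Finset.sum_congr rfl h1, Finset.sum_range_sub (fun k => Real.log (V (c ^ k * x)))]
  simp

/-- the geometric mean of the ratios along a geometric progression tends to `c` -/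
theorem gm {c x : ℝ} (hc : 1 < c) (hx : 1 ≤ x) :
    Tendsto (fun K : ℕ => (∑ k ∈ Finset.range K,
      Real.log ((V (c ^ (k + 1) * x) : ℝ) / V (c ^ k * x))) / K) atTop (𝓝 (Real.log c)) := by
  simp only [telescope hc hx]
  have hlc : 0 < Real.log c := Real.log_pos hc
  have hy : Tendsto (fun K : ℕ => c ^ K * x) atTop atTop :=
    (tendsto_pow_atTop_atTop_of_one_lt hc).atTop_mul_const (by linarith)
  have h1 : Tendsto (fun K : ℕ => Real.log (V (c ^ K * x)) / Real.log (c ^ K * x)) atTop (𝓝 1) :=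
    log_V.comp hy
  have hinv : ∀ a : ℝ, Tendsto (fun K : ℕ => a / (K : ℝ)) atTop (𝓝 0) := fun a =>
    tendsto_const_nhds.div_atTop tendsto_natCast_atTop_atTop
  have h2 : Tendsto (fun K : ℕ => Real.log c + Real.log x / (K : ℝ)) atTop (𝓝 (Real.log c)) := by
    simpa using tendsto_const_nhds.add (hinv (Real.log x))
  have h3 := (h1.mul h2).sub (hinv (Real.log (V x)))
  rw [one_mul, sub_zero] at h3
  refine h3.congr' ?_
  filter_upwards [eventually_gt_atTop 0] with K hK
  have hK' : (0 : ℝ) < K := by exact_mod_cast hK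
  have hlog : Real.log (c ^ K * x) = K * Real.log c + Real.log x := by
    rw [Real.log_mul (by positivity) (by linarith), Real.log_pow]
  have hpos : 0 < Real.log (c ^ K * x) := by
    rw [hlog]
    have := Real.log_nonneg hx
    positivity
  rw [hlog] at hpos
  rw [hlog]
  field_simp

theorem freq_lt {c : ℝ} (hc : 1 < c) (d : ℝ) (hd : c < d) :
    ∃ᶠ x : ℝ in atTop, (V (c * x) : ℝ) < d * V x := by
  intro hcon
  obtain ⟨x₀, hx₀⟩ := eventually_atTop.mp hcon
  have hx : 1 ≤ max x₀ 1 := le_max_right _ _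
  have h1 := gm hc hx
  have h2 : Real.log d ≤ Real.log c := by
    refine ge_of_tendsto h1 ?_
    filter_upwards [eventually_gt_atTop 0] with K hK
    have hK' : (0 : ℝ) < K := by exact_mod_cast hK
    rw [le_div_iff₀ hK']
    calc Real.log d * K = ∑ k ∈ Finset.range K, Real.log d := by
          rw [Finset.sum_const, Finset.card_range, nsmul_eq_mul, mul_comm]
      _ ≤ _ := by
          refine Finset.sum_le_sum fun k _ => ?_
          have h3 := V_posR (one_le_pow_mul hc hx k)
          apply Real.log_le_log (by linarith)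
          rw [le_div_iff₀ h3]
          have h4 := hx₀ (c ^ k * max x₀ 1) ((le_max_left x₀ 1).trans
            (le_mul_of_one_le_left (by linarith) (one_le_pow₀ hc.le)))
          rw [not_lt] at h4
          have h5 : c ^ (k + 1) * max x₀ 1 = c * (c ^ k * max x₀ 1) := by ring
          rw [h5]
          exact h4
  have h3 : Real.log c < Real.log d := Real.log_lt_log (by linarith) hd
  linarith

theorem freq_gt {c : ℝ} (hc : 1 < c) (d : ℝ) (hd0 : 0 < d) (hd : d < c) :
    ∃ᶠ x : ℝ in atTop, d * V x < V (c * x) := by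
  intro hcon
  obtain ⟨x₀, hx₀⟩ := eventually_atTop.mp hcon
  have hx : 1 ≤ max x₀ 1 := le_max_right _ _
  have h1 := gm hc hx
  have h2 : Real.log c ≤ Real.log d := by
    refine le_of_tendsto h1 ?_
    filter_upwards [eventually_gt_atTop 0] with K hK
    have hK' : (0 : ℝ) < K := by exact_mod_cast hK
    rw [div_le_iff₀ hK']
    calc _ ≤ ∑ k ∈ Finset.range K, Real.log d := by
          refine Finset.sum_le_sum fun k _ => ?_
          have h3 := V_posR (one_le_pow_mul hc hx k)
          have h3' := V_posR (one_le_pow_mul hc hx (k + 1))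
          apply Real.log_le_log (by positivity)
          rw [div_le_iff₀ h3]
          have h4 := hx₀ (c ^ k * max x₀ 1) ((le_max_left x₀ 1).trans
            (le_mul_of_one_le_left (by linarith) (one_le_pow₀ hc.le)))
          rw [not_lt] at h4
          have h5 : c ^ (k + 1) * max x₀ 1 = c * (c ^ k * max x₀ 1) := by ring
          rw [h5]
          exact h4
      _ = Real.log d * K := by
          rw [Finset.sum_const, Finset.card_range, nsmul_eq_mul, mul_comm]
  have h3 : Real.log d < Real.log c := Real.log_lt_log hd0 hd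
  linarith

/-- for `d > c` the ratio is smaller than `d` on a positive proportion of the scales `c ^ k x` -/
theorem scales {c x d : ℝ} (hc : 1 < c) (hx : 1 ≤ x) (hd : c < d) (ε : ℝ) (hε : 0 < ε) :
    ∀ᶠ K : ℕ in atTop, (1 - Real.log c / Real.log d - ε) * K ≤
      (((Finset.range K).filter fun k => (V (c ^ (k + 1) * x) : ℝ) < d * V (c ^ k * x)).card :
        ℝ) := by
  classical
  have hld : 0 < Real.log d := Real.log_pos (by linarith)
  have h1 := (gm hc hx).eventually (gt_mem_nhds
    (show Real.log c < Real.log c + ε * Real.log d by linarith [mul_pos hε hld]))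
  filter_upwards [h1, eventually_gt_atTop 0] with K hK hK0
  have hK' : (0 : ℝ) < K := by exact_mod_cast hK0
  rw [div_lt_iff₀ hK'] at hK
  set S := (Finset.range K).filter fun k => (V (c ^ (k + 1) * x) : ℝ) < d * V (c ^ k * x) with hS
  have h2 : ((K : ℝ) - S.card) * Real.log d ≤ ∑ k ∈ Finset.range K,
      Real.log ((V (c ^ (k + 1) * x) : ℝ) / V (c ^ k * x)) := by
    rw [← Finset.sum_filter_add_sum_filter_not (Finset.range K)
      (fun k => (V (c ^ (k + 1) * x) : ℝ) < d * V (c ^ k * x))]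
    have h3 : (0 : ℝ) ≤ ∑ k ∈ S, Real.log ((V (c ^ (k + 1) * x) : ℝ) / V (c ^ k * x)) := by
      refine Finset.sum_nonneg fun k _ => ?_
      apply Real.log_nonneg
      rw [one_le_div (V_posR (one_le_pow_mul hc hx k))]
      have h4 : c ^ k * x ≤ c ^ (k + 1) * x := by
        apply mul_le_mul_of_nonneg_right _ (by linarith)
        exact pow_le_pow_right₀ hc.le (Nat.le_succ k)
      exact_mod_cast V_mono h4
    set T := (Finset.range K).filter fun k => ¬ ((V (c ^ (k + 1) * x) : ℝ) < d * V (c ^ k * x))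
      with hT
    have h5 : (T.card : ℝ) * Real.log d ≤
        ∑ k ∈ T, Real.log ((V (c ^ (k + 1) * x) : ℝ) / V (c ^ k * x)) := by
      rw [← nsmul_eq_mul]
      refine Finset.card_nsmul_le_sum T _ _ fun k hk => ?_
      rw [hT, Finset.mem_filter, not_lt] at hk
      apply Real.log_le_log (by linarith)
      rw [le_div_iff₀ (V_posR (one_le_pow_mul hc hx k))]
      exact hk.2
    have h6 : (S.card : ℝ) + T.card = K := by
      have := Finset.card_filter_add_card_filter_not (s := Finset.range K)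
        (fun k => (V (c ^ (k + 1) * x) : ℝ) < d * V (c ^ k * x))
      rw [Finset.card_range] at this
      exact_mod_cast this
    have h7 : (K : ℝ) - S.card = T.card := by linarith
    rw [h7]
    linarith
  have h8 : ((K : ℝ) - S.card) * Real.log d < (Real.log c + ε * Real.log d) * K := by linarith
  have h9 : (K : ℝ) - S.card < (Real.log c / Real.log d + ε) * K := by
    have : (Real.log c + ε * Real.log d) * K = ((Real.log c / Real.log d + ε) * K) * Real.log d := by
      field_simp
    rw [this] at h8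
    exact lt_of_mul_lt_mul_right h8 hld.le
  linarith

theorem limit_eq {c : ℝ} (hc : 1 < c) (l : ℝ)
    (hl : Tendsto (fun x : ℝ => (V (c * x) : ℝ) / V x) atTop (𝓝 l)) : l = c := by
  apply le_antisymm
  · by_contra h
    push Not at h
    obtain ⟨d, hd1, hd2⟩ := exists_between h
    have h1 := hl.eventually (lt_mem_nhds hd2)
    obtain ⟨x, hx1, hx2, hx3⟩ := ((freq_lt hc d hd1).and_eventually
      (h1.and (eventually_ge_atTop 1))).exists
    rw [lt_div_iff₀ (V_posR hx3)] at hx2
    linarith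
  · by_contra h
    push Not at h
    have h0 : 0 ≤ l := ge_of_tendsto' hl fun x => by positivity
    obtain ⟨d, hd1, hd2⟩ := exists_between h
    have h1 := hl.eventually (gt_mem_nhds hd1)
    obtain ⟨x, hx1, hx2, hx3⟩ := ((freq_gt hc d (by linarith) hd2).and_eventually
      (h1.and (eventually_ge_atTop 1))).exists
    rw [div_lt_iff₀ (V_posR hx3)] at hx2
    linarith

/-- doubling -/
theorem V_double (x : ℝ) : V (2 * x) = V x + U (2 * x) := by
  classical
  have hinj : Function.Injective (fun w : ℕ => 2 * w) := fun a b h => by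
    simp only at h; omega
  have h1 : {v : ℕ | v ∈ Totients ∧ (v : ℝ) ≤ 2 * x} =
      ((fun w : ℕ => 2 * w) '' {v : ℕ | v ∈ Totients ∧ (v : ℝ) ≤ x}) ∪
        {v : ℕ | v ∈ Primitive ∧ (v : ℝ) ≤ 2 * x} := by
    ext v
    constructor
    · rintro ⟨hv, hvx⟩
      by_cases h : ∀ w ∈ Totients, v ≠ 2 * w
      · exact Or.inr ⟨⟨hv, h⟩, hvx⟩
      · push Not at h
        obtain ⟨w, hw, rfl⟩ := h
        refine Or.inl ⟨w, ⟨hw, ?_⟩, rfl⟩
        push_cast at hvx
        linarith
    · rintro (⟨w, ⟨hw, hwx⟩, rfl⟩ | ⟨hv, hvx⟩)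
      · refine ⟨double hw, ?_⟩
        show ((2 * w : ℕ) : ℝ) ≤ 2 * x
        push_cast
        linarith
      · exact ⟨hv.1, hvx⟩
  have hdisj : Disjoint ((fun w : ℕ => 2 * w) '' {v : ℕ | v ∈ Totients ∧ (v : ℝ) ≤ x})
      {v : ℕ | v ∈ Primitive ∧ (v : ℝ) ≤ 2 * x} := by
    rw [Set.disjoint_left]
    rintro _ ⟨w, ⟨hw, _⟩, rfl⟩ ⟨hP, _⟩
    exact hP.2 w hw rfl
  unfold V U
  rw [h1, Set.ncard_union_eq hdisj ((finite_le _ _).image _) (finite_le _ _),
    Set.ncard_image_of_injective _ hinj]

theorem U_ratio {x : ℝ} (hx : 1 ≤ x) :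
    1 - (U (2 * x) : ℝ) / V (2 * x) = (V x : ℝ) / V (2 * x) := by
  have h1 := V_double x
  have h2 : (0 : ℝ) < V (2 * x) := V_posR (by linarith)
  have h3 : (V (2 * x) : ℝ) = V x + U (2 * x) := by exact_mod_cast h1
  rw [eq_div_iff h2.ne', sub_mul, div_mul_cancel₀ _ h2.ne', one_mul]
  linarith

theorem iff_half : Tendsto (fun x : ℝ => (V (2 * x) : ℝ) / V x) atTop (𝓝 2) ↔
    Tendsto (fun x : ℝ => (U x : ℝ) / V x) atTop (𝓝 (1 / 2)) := by
  constructor
  · intro h
    have h1 := (tendsto_const_nhds (x := (1 : ℝ))).sub (h.inv₀ (by norm_num))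
    have h2 : Tendsto (fun x : ℝ => (U (2 * x) : ℝ) / V (2 * x)) atTop (𝓝 (1 / 2)) := by
      have e : (1 : ℝ) - 2⁻¹ = 1 / 2 := by norm_num
      rw [e] at h1
      refine h1.congr' ?_
      filter_upwards [eventually_ge_atTop (1 : ℝ)] with x hx
      rw [inv_div, ← U_ratio hx]
      ring
    have h3 : Tendsto (fun x : ℝ => x / 2) atTop atTop :=
      tendsto_id.atTop_div_const (by norm_num)
    refine (h2.comp h3).congr fun x => ?_
    simp only [Function.comp]
    rw [mul_div_cancel₀ x (by norm_num : (2 : ℝ) ≠ 0)]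
  · intro h
    have h3 : Tendsto (fun x : ℝ => 2 * x) atTop atTop :=
      tendsto_id.const_mul_atTop (by norm_num)
    have h1 := ((tendsto_const_nhds (x := (1 : ℝ))).sub (h.comp h3)).inv₀ (by norm_num)
    have e : (1 - 1 / 2 : ℝ)⁻¹ = 2 := by norm_num
    rw [e] at h1
    refine h1.congr' ?_
    filter_upwards [eventually_ge_atTop (1 : ℝ)] with x hx
    simp only [Function.comp]
    rw [U_ratio hx, inv_div]

theorem gm_U {x : ℝ} (hx : 1 ≤ x) :
    Tendsto (fun K : ℕ => (∑ k ∈ Finset.range K,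
      Real.log (1 - (U (2 ^ (k + 1) * x) : ℝ) / V (2 ^ (k + 1) * x))) / K) atTop
      (𝓝 (-Real.log 2)) := by
  have h1 := (gm (c := 2) (by norm_num) hx).neg
  refine h1.congr fun K => ?_
  rw [← neg_div, ← Finset.sum_neg_distrib]
  congr 1
  refine Finset.sum_congr rfl fun k _ => ?_
  have h2 := U_ratio (one_le_pow_mul (c := 2) (by norm_num) hx k)
  have h3 : (2 : ℝ) ^ (k + 1) * x = 2 * (2 ^ k * x) := by ring
  rw [h3, h2, ← Real.log_inv, inv_div]

theorem freq_U_lt (d : ℝ) (hd1 : 1 / 2 < d) (hd2 : d < 1) :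
    ∃ᶠ x : ℝ in atTop, (U x : ℝ) < d * V x := by
  have h1 : (2 : ℝ) < 1 / (1 - d) := by
    rw [lt_div_iff₀ (by linarith)]; linarith
  have h2 := (freq_lt (c := 2) (by norm_num) _ h1).and_eventually (eventually_ge_atTop (1 : ℝ))
  have h3 : Tendsto (fun x : ℝ => 2 * x) atTop atTop :=
    tendsto_id.const_mul_atTop (by norm_num)
  refine h3.frequently (h2.mono ?_)
  rintro x ⟨hx1, hx2⟩
  have h4 : (V (2 * x) : ℝ) = V x + U (2 * x) := by exact_mod_cast V_double x
  have h5 : (V (2 * x) : ℝ) * (1 - d) < V x := by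
    rw [div_mul_eq_mul_div, one_mul, lt_div_iff₀ (by linarith)] at hx1
    exact hx1
  nlinarith

theorem freq_U_gt (d : ℝ) (hd1 : 0 < d) (hd2 : d < 1 / 2) :
    ∃ᶠ x : ℝ in atTop, d * V x < (U x : ℝ) := by
  have h1 : 1 / (1 - d) < (2 : ℝ) := by
    rw [div_lt_iff₀ (by linarith)]; linarith
  have h2 := (freq_gt (c := 2) (by norm_num) _ (by apply div_pos one_pos; linarith)
    h1).and_eventually (eventually_ge_atTop (1 : ℝ))
  have h3 : Tendsto (fun x : ℝ => 2 * x) atTop atTop :=
    tendsto_id.const_mul_atTop (by norm_num)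
  refine h3.frequently (h2.mono ?_)
  rintro x ⟨hx1, hx2⟩
  have h4 : (V (2 * x) : ℝ) = V x + U (2 * x) := by exact_mod_cast V_double x
  have h5 : (V x : ℝ) < V (2 * x) * (1 - d) := by
    rw [div_mul_eq_mul_div, one_mul, div_lt_iff₀ (by linarith)] at hx1
    exact hx1
  nlinarith

end Vale.Agent.P031
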